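import Crest.Agent.N218.Pm.Defs
import Crest.Agent.N218.Fo.Fo

-- ▼ part N218/Pm/AlgD
section

/-!
# Row 218, block ALG (helper45): the square, definitions and leaves
-/

set_option autoImplicit false
set_option linter.unusedVariables false

open Set Topology unitInterval

noncomputable section

namespace Crest.Agent.N218.Pm

section gen
variable {B X : Type} {k : ℕ} {E E' : Type} [NormedAddCommGroup E] [NormedSpace ℝ E]
  [NormedAddCommGroup E'] [NormedSpace ℝ E']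

/-- replace the normal map -/
def PM.wn (A : PM B k E) (n : B → V k E →L[ℝ] V k E) : PM B k E := ⟨A.O, A.P, n⟩
/-- a family of paths as a path of families; the base point is `((x, θ), s)` -/
def PM.fm (A : ℝ → PM (X × ℝ) k E) : PM ((X × ℝ) × ℝ) k E :=
  ⟨{w | ((w.1.1.1, w.1.2), w.2) ∈ (A w.1.1.2).O}, fun w => (A w.1.1.2).P ((w.1.1.1, w.1.2), w.2),
    fun b => (A b.1.2).n (b.1.1, b.2)⟩
variable (k) in
/-- slotwise linear maps -/
def NL (A : E →L[ℝ] E') : V k E →L[ℝ] V k E' :=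
  ContinuousLinearMap.pi fun i => A.comp (ContinuousLinearMap.proj i)
@[simp] theorem NL_apply (A : E →L[ℝ] E') (y : V k E) (i : Ix k) : NL k A y i = A (y i) := rfl
end gen

/-- the unitary path from `1` to the shift -/
def Tg (k : ℕ) (E : Type) [NormedAddCommGroup E] [NormedSpace ℂ E] (θ : ℝ) :
    V k E →L[ℝ] V k E := (Fo.g (-θ)).restrictScalars ℝ

/-- rotate the range of the projection `π` by the angle `a` -/
def rot {E : Type} [NormedAddCommGroup E] [NormedSpace ℂ E] (π : E →L[ℂ] E) (a : ℝ) :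
    E →L[ℝ] E := (1 + (Complex.exp (a * Complex.I) - 1) • π).restrictScalars ℝ

namespace Data
variable {X E₁ E₂ : Type} [TopologicalSpace X] [NormedAddCommGroup E₁] [InnerProductSpace ℂ E₁]
  [NormedAddCommGroup E₂] [InnerProductSpace ℂ E₂] (D : Data X E₁ E₂) (k : ℕ)

/-- the slotwise normal maps -/
def nu (x : X) (a b : ℝ) : V k (E₁ × E₂) →L[ℝ] V k (E₁ × E₂) :=
  NL k ((rot (D.π₁ x) a).prodMap (rot (D.π₂ x) b))

/-- the junction maps `(y - N u z, z - T_β N v T_α y)` over `(x, α, β)` -/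
def K : PM (X × ℝ × ℝ) k (E₁ × E₂) :=
  ⟨{w | ∀ i, (w.1.1, Tg k E₁ w.1.2.1 (s1 w.2) i) ∈ D.Ov},
    fun w => pr (fun i => s1 w.2 i - D.u (w.1.1, s2 w.2 i))
      (s2 w.2 - Tg k E₂ w.1.2.2 fun i => D.v (w.1.1, Tg k E₁ w.1.2.1 (s1 w.2) i)), fun _ => 1⟩

/-- the slotwise path `N γ` -/
def G : PM (X × ℝ) k (E₁ × E₂) :=
  (D.path k 1 1).wn fun b => D.nu k b.1 (Real.pi * (1 - cl (b.2 - 2))) (Real.pi * cl (b.2 - 2))

/-- the coupled orbit loop -/
def Lo : PM (X × UnitAddCircle) k (E₁ × E₂) :=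
  ((D.K k).pull fun b => (b.1, rep b.2, -rep b.2)).wn fun b => D.nu k b.1 0 Real.pi
end Data

/-- **ARC** : the four arcs and the junction maps are proper families, jointly in the angle -/
def ARC : Prop :=
  ∀ (X : Type) [TopologicalSpace X] [CompactSpace X] [T2Space X] (E₁ E₂ : Type)
    [NormedAddCommGroup E₁] [InnerProductSpace ℂ E₁] [FiniteDimensional ℂ E₁]
    [NormedAddCommGroup E₂] [InnerProductSpace ℂ E₂] [FiniteDimensional ℂ E₂]
    (D : Data X E₁ E₂) (c κ R₀ M : ℝ) (k : ℕ), D.Ok c κ R₀ M →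
    (PM.fm fun θ => D.a₁ k (Tg k E₁ θ)).Ok ∧ (PM.fm fun θ => D.a₂ k (Tg k E₁ θ)).Ok ∧
      (PM.fm fun θ => D.a₃ k (Tg k E₂ θ)).Ok ∧ (PM.fm fun θ => D.a₄ k (Tg k E₂ θ)).Ok ∧ (D.K k).Ok

/-- **D5** : the slotwise path has invariant zero -/
def D5 : Prop :=
  ∀ (X : Type) [TopologicalSpace X] [CompactSpace X] [T2Space X] (A : Type) [AddCommGroup A]
    (T : Th X A) (E₁ E₂ : Type) [NormedAddCommGroup E₁] [InnerProductSpace ℂ E₁]
    [FiniteDimensional ℂ E₁] [NormedAddCommGroup E₂] [InnerProductSpace ℂ E₂]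
    [FiniteDimensional ℂ E₂] (D : Data X E₁ E₂) (c κ R₀ M : ℝ) (k : ℕ) (δ : ℝ),
    D.Ok c κ R₀ M → 21 ≤ k → 0 < δ →
    (∀ k, (D.G k).Ok ∧ ∀ x s δ', s ≤ 0 ∨ 6 ≤ s → (D.G k).NoZ δ' (x, s)) →
    T.pa k (sp (E₁ × E₂)) ((D.G k).F (tau δ)) = 0

/-- **LOOP** : uncouple the orbit loop -/
def LOOP : Prop :=
  ∀ (X : Type) [TopologicalSpace X] [CompactSpace X] [T2Space X] (A : Type) [AddCommGroup A]
    (T : Th X A) (E₁ E₂ : Type) [NormedAddCommGroup E₁] [InnerProductSpace ℂ E₁]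
    [FiniteDimensional ℂ E₁] [NormedAddCommGroup E₂] [InnerProductSpace ℂ E₂]
    [FiniteDimensional ℂ E₂] (D : Data X E₁ E₂) (c κ R₀ M : ℝ) (k : ℕ) (δ : ℝ),
    D.Ok c κ R₀ M → 16 ≤ k → 0 < δ →
    ((D.Lo k).F (tau δ)).Ok ∧ ((D.Orb k).F (tau δ)).Ok ∧
      T.an k (sp (E₁ × E₂)) ((D.Lo k).F (tau δ)) = T.an k (sp (E₁ × E₂)) ((D.Orb k).F (tau δ))

end Crest.Agent.N218.Pm

end
end

-- ▼ part N218/Fo/L2

/-! # N218/Fo/L2 (helper45): Parseval; unimodular multipliers preserve the `ℓ²` norm -/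

set_option autoImplicit false
set_option linter.unusedSectionVars false

open scoped InnerProductSpace

noncomputable section

namespace Crest.Agent.N218.Fo

variable {q : ℕ} [NeZero q] {E : Type} [NormedAddCommGroup E]

/-- the `ℓ²` norm -/
def n2 (y : ZMod q → E) : ℝ := ‖(WithLp.toLp 2 y : PiLp 2 fun _ : ZMod q => E)‖

theorem n2_sq (y : ZMod q → E) : n2 y ^ 2 = ∑ i, ‖y i‖ ^ 2 := PiLp.norm_sq_eq_of_L2 _ _
theorem n2_nonneg (y : ZMod q → E) : 0 ≤ n2 y := norm_nonneg _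
theorem le_n2 (y : ZMod q → E) (i : ZMod q) : ‖y i‖ ≤ n2 y :=
  PiLp.norm_apply_le (WithLp.toLp 2 y : PiLp 2 fun _ : ZMod q => E) i
theorem norm_le_n2 (y : ZMod q → E) : ‖y‖ ≤ n2 y :=
  (pi_norm_le_iff_of_nonneg (n2_nonneg y)).2 (le_n2 y)
theorem n2_add (y z : ZMod q → E) : n2 (y + z) ≤ n2 y + n2 z := norm_add_le
  (WithLp.toLp 2 y : PiLp 2 fun _ : ZMod q => E) (WithLp.toLp 2 z)
theorem n2_eq_zero {y : ZMod q → E} (h : n2 y ≤ 0) : y = 0 := norm_le_zero_iff.1 ((norm_le_n2 y).trans h)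
theorem n2_mono {F : Type} [NormedAddCommGroup F] {y : ZMod q → E} {z : ZMod q → F}
    (h : ∀ i, ‖y i‖ ≤ ‖z i‖) : n2 y ≤ n2 z :=
  (pow_le_pow_iff_left₀ (n2_nonneg _) (n2_nonneg _) two_ne_zero).1 (by
    rw [n2_sq, n2_sq]; exact Finset.sum_le_sum fun i _ => pow_le_pow_left₀ (norm_nonneg _) (h i) 2)
theorem n2_congr {F : Type} [NormedAddCommGroup F] {y : ZMod q → E} {z : ZMod q → F}
    (h : ∀ i, ‖y i‖ = ‖z i‖) : n2 y = n2 z :=
  le_antisymm (n2_mono fun i => (h i).le) (n2_mono fun i => (h i).ge)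
theorem n2_le (y : ZMod q → E) {C : ℝ} (h : ∀ i, ‖y i‖ ≤ C) : n2 y ≤ q * C := by
  have h0 : 0 ≤ C := (norm_nonneg _).trans (h 0)
  have h1 : (1 : ℝ) ≤ q := Nat.one_le_cast.2 (Nat.pos_of_ne_zero (NeZero.ne q))
  refine (pow_le_pow_iff_left₀ (n2_nonneg _) (by positivity) two_ne_zero).1 ?_
  rw [n2_sq]
  refine (Finset.sum_le_card_nsmul _ _ (C ^ 2) fun i _ =>
    pow_le_pow_left₀ (norm_nonneg _) (h i) 2).trans ?_
  rw [Finset.card_univ, ZMod.card, nsmul_eq_mul]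
  nlinarith [mul_nonneg (sub_nonneg.2 h1) (mul_nonneg (zero_le_one.trans h1) (sq_nonneg C))]
theorem n2_smul {𝕜 : Type} [NormedField 𝕜] [NormedSpace 𝕜 E] (c : 𝕜) (y : ZMod q → E) :
    n2 (c • y) = ‖c‖ * n2 y := norm_smul c (WithLp.toLp 2 y : PiLp 2 fun _ : ZMod q => E)
@[fun_prop] theorem continuous_n2 : Continuous (n2 : (ZMod q → E) → ℝ) :=
  continuous_norm.comp (PiLp.continuous_toLp 2 _)

/-- slotwise affine lower bounds pass to the `ℓ²` norms -/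
theorem n2_ge {F : Type} [NormedAddCommGroup F] {y : ZMod q → E} {z : ZMod q → F} {a C : ℝ}
    (ha : 0 ≤ a) (hC : 0 ≤ C) (h : ∀ i, a * ‖y i‖ ≤ ‖z i‖ + C) : a * n2 y ≤ n2 z + q * C := by
  have e1 : a * n2 y = n2 (fun i => a * ‖y i‖) := by
    have := n2_smul a (fun i => ‖y i‖)
    rw [Real.norm_of_nonneg ha, n2_congr (z := y) fun i => norm_norm _] at this
    exact this.symm
  rw [e1]
  refine (n2_mono (z := (fun i => ‖z i‖) + fun _ => C) fun i => ?_).trans ((n2_add _ _).trans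
    (add_le_add (n2_congr fun i => norm_norm _).le (n2_le _ fun _ => (Real.norm_of_nonneg hC).le)))
  rw [Real.norm_of_nonneg (mul_nonneg ha (norm_nonneg _))]
  exact (h i).trans (le_abs_self _)

variable [InnerProductSpace ℂ E]

theorem conj_ch (a : ZMod q) : (starRingEnd ℂ) (ch a) = ch (-a) := by
  rw [ch_neg, Complex.inv_def, Complex.normSq_eq_norm_sq, norm_ch]; simp

theorem D_adj (y w : ZMod q → E) :
    ∑ k, ⟪D q E y k, w k⟫_ℂ = q * ∑ i, ⟪y i, (D q E).symm w i⟫_ℂ := by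
  have : (q : ℂ) ≠ 0 := Nat.cast_ne_zero.2 (NeZero.ne q)
  simp only [D_apply, D_symm, sum_inner, inner_sum, inner_smul_left, inner_smul_right, conj_ch,
    neg_neg, ← Finset.mul_sum, mul_inv_cancel_left₀ this]
  rw [Finset.sum_comm]
  simp only [mul_comm]

/-- **Parseval** -/
theorem n2_D (y : ZMod q → E) : n2 (D q E y) ^ 2 = q * n2 y ^ 2 := by
  have := D_adj y (D q E y)
  simp only [ContinuousLinearEquiv.symm_apply_apply, inner_self_eq_norm_sq_to_K] at this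
  rw [n2_sq, n2_sq]
  apply Complex.ofReal_injective
  push_cast
  exact this

theorem n2_mu_le {ν : ZMod q → ℂ} {c : ℝ} (h : ∀ k, ‖ν k‖ ≤ c) (y : ZMod q → E) :
    n2 (mu ν y) ≤ c * n2 y := by
  have h0 : 0 ≤ c := (norm_nonneg _).trans (h 0)
  have hq : (0 : ℝ) < q := Nat.cast_pos.2 (Nat.pos_of_ne_zero (NeZero.ne q))
  have a : n2 (D q E (mu ν y)) ≤ c * n2 (D q E y) := by
    rw [← Real.norm_of_nonneg h0, ← Complex.norm_real, ← n2_smul]
    refine n2_mono fun k => ?_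
    rw [D_mu, Pi.smul_apply, norm_smul, norm_smul, Complex.norm_real, Real.norm_of_nonneg h0]
    exact mul_le_mul_of_nonneg_right (h k) (norm_nonneg _)
  have b := pow_le_pow_left₀ (n2_nonneg _) a 2
  rw [mul_pow, n2_D, n2_D] at b
  refine (pow_le_pow_iff_left₀ (n2_nonneg _) (mul_nonneg h0 (n2_nonneg _)) two_ne_zero).1 ?_
  rw [mul_pow]
  exact le_of_mul_le_mul_left (by linarith) hq

theorem n2_mu {ν : ZMod q → ℂ} (h : ∀ k, ‖ν k‖ = 1) (y : ZMod q → E) : n2 (mu ν y) = n2 y := by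
  refine le_antisymm ((n2_mu_le (fun k => (h k).le) y).trans_eq (one_mul _)) ?_
  have := n2_mu_le (ν := ν⁻¹) (c := 1) (fun k => by rw [Pi.inv_apply, norm_inv, h, inv_one]) (mu ν y)
  rwa [mu_inv fun k e => by simpa [e] using h k, one_mul] at this

theorem n2_g (r : ℝ) (y : ZMod q → E) : n2 (g r y) = n2 y := n2_mu (norm_gs r) y

end Crest.Agent.N218.Fo

end
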